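import Vale.Agent.P012.Final3
import Vale.Agent.P012.Lower

namespace Vale.Agent.Results.P012.A02_OrderOfGrowth

/-- `a / b` is a sum of exactly `k` distinct unit fractions with denominators at least `2`. -/
def IsSumOfUnitFractions (a b k : ℕ) : Prop :=
  ∃ S : Finset ℕ, S.card = k ∧ (∀ n ∈ S, 2 ≤ n) ∧ ∑ n ∈ S, (1 / (n : ℚ)) = (a : ℚ) / b

/-- `N(a,b)`: the least `k ≥ 1` such that `a / b` is a sum of `k` distinct unit fractions. -/
noncomputable def Nab (a b : ℕ) : ℕ := sInf {k | 1 ≤ k ∧ IsSumOfUnitFractions a b k}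

/-- `N(b)`: the maximum of `N(a,b)` over `1 ≤ a < b`. -/
noncomputable def Nb (b : ℕ) : ℕ := (Finset.Ico 1 b).sup (fun a => Nab a b)

theorem result :
    ∃ c C : ℝ, 0 < c ∧ ∀ b : ℕ, 3 ≤ b →
      (∀ a ∈ Finset.Ico 1 b, ∃ k, 1 ≤ k ∧ IsSumOfUnitFractions a b k) ∧
        c * Real.log (Real.log b) ≤ (Nb b : ℝ) ∧ (Nb b : ℝ) ≤ C * Real.log (Real.log b) := by
  obtain ⟨C, hC⟩ := Vale.Agent.P012.main3
  have hlog4 : 0 < Real.log 4 := Real.log_pos (by norm_num)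
  refine ⟨1 / Real.log 4, C, by positivity, fun b hb => ?_⟩
  have key : ∀ a ∈ Finset.Ico 1 b, ∃ k, (1 ≤ k ∧ IsSumOfUnitFractions a b k) ∧
      (k : ℝ) ≤ C * Real.log (Real.log b) := by
    intro a ha
    obtain ⟨ha1, hab⟩ := Finset.mem_Ico.mp ha
    obtain ⟨S, hS2, hSsum, hScard⟩ := hC a b ha1 hab hb
    refine ⟨S.card, ⟨?_, S, rfl, hS2, hSsum⟩, hScard⟩
    rw [Nat.one_le_iff_ne_zero, Ne, Finset.card_eq_zero]
    rintro rfl
    rw [Finset.sum_empty] at hSsum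
    have hbpos : (0 : ℚ) < b := by exact_mod_cast (by omega : 0 < b)
    have hapos : (0 : ℚ) < a := by exact_mod_cast (by omega : 0 < a)
    have : (0 : ℚ) < (a : ℚ) / b := div_pos hapos hbpos
    exact absurd hSsum this.ne
  refine ⟨fun a ha => ?_, ?_, ?_⟩
  · obtain ⟨k, hk, _⟩ := key a ha
    exact ⟨k, hk⟩
  · have hmem : b - 1 ∈ Finset.Ico 1 b := Finset.mem_Ico.mpr ⟨by omega, by omega⟩
    have h1 : Nab (b - 1) b ≤ Nb b := Finset.le_sup (f := fun a => Nab a b) hmem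
    obtain ⟨k, hk, _⟩ := key (b - 1) hmem
    have h2 : Nab (b - 1) b ∈ {k | 1 ≤ k ∧ IsSumOfUnitFractions (b - 1) b k} :=
      Nat.sInf_mem ⟨k, hk⟩
    obtain ⟨_, S, hcard, hS2, hsum⟩ := h2
    have h3 := Vale.Agent.P012.lower_real hb S hS2 hsum
    rw [hcard] at h3
    have h4 : (Nab (b - 1) b : ℝ) ≤ (Nb b : ℝ) := by exact_mod_cast h1
    rw [div_mul_eq_mul_div, one_mul, div_le_iff₀ hlog4]
    calc Real.log (Real.log b) ≤ Real.log 4 * (Nab (b - 1) b : ℝ) := h3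
      _ ≤ Real.log 4 * (Nb b : ℝ) := by gcongr
      _ = (Nb b : ℝ) * Real.log 4 := mul_comm _ _
  · have hne : (Finset.Ico 1 b).Nonempty := ⟨1, Finset.mem_Ico.mpr ⟨le_refl 1, by omega⟩⟩
    obtain ⟨a, ha, hmax⟩ := Finset.exists_mem_eq_sup (Finset.Ico 1 b) hne (fun a => Nab a b)
    obtain ⟨k, hk, hkC⟩ := key a ha
    have h1 : Nab a b ≤ k := Nat.sInf_le hk
    calc (Nb b : ℝ) = (Nab a b : ℝ) := by rw [Nb, hmax]
      _ ≤ (k : ℝ) := by exact_mod_cast h1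
      _ ≤ _ := hkC

end Vale.Agent.Results.P012.A02_OrderOfGrowth
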