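import Vale.Agent.P012.Assemble2

theorem Vale.Agent.Results.P012.A0_LogLogTimesLogLogLog.result :
    ∃ C : ℝ, ∀ a b : ℕ, 1 ≤ a → a < b → 16 ≤ b →
      ∃ S : Finset ℕ, (∀ n ∈ S, 2 ≤ n) ∧ ∑ n ∈ S, (1 / (n : ℚ)) = (a : ℚ) / b ∧
        (S.card : ℝ) ≤ C * (Real.log (Real.log b) * Real.log (Real.log (Real.log b))) :=
  Vale.Agent.P012.main2
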