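import Vale.Agent.P012.Assemble2

namespace Vale.Agent.Results.P012.A1_NbBoundTLogT

/-- `a / b` is a sum of exactly `k` distinct unit fractions with denominators at least `2`. -/
def IsSumOfUnitFractions (a b k : ℕ) : Prop :=
  ∃ S : Finset ℕ, S.card = k ∧ (∀ n ∈ S, 2 ≤ n) ∧ ∑ n ∈ S, (1 / (n : ℚ)) = (a : ℚ) / b

/-- `N(a,b)`: the least `k ≥ 1` such that `a / b` is a sum of `k` distinct unit fractions. -/
noncomputable def Nab (a b : ℕ) : ℕ := sInf {k | 1 ≤ k ∧ IsSumOfUnitFractions a b k}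

/-- `N(b)`: the maximum of `N(a,b)` over `1 ≤ a < b`. -/
noncomputable def Nb (b : ℕ) : ℕ := (Finset.Ico 1 b).sup (fun a => Nab a b)

theorem result :
    ∃ C : ℝ, ∀ b : ℕ, 16 ≤ b →
      (∀ a ∈ Finset.Ico 1 b, ∃ k, 1 ≤ k ∧ IsSumOfUnitFractions a b k) ∧
        (Nb b : ℝ) ≤ C * (Real.log (Real.log b) * Real.log (Real.log (Real.log b))) := by
  obtain ⟨C, hC⟩ := Vale.Agent.P012.main2
  refine ⟨C, fun b hb => ?_⟩
  have key : ∀ a ∈ Finset.Ico 1 b, ∃ k, (1 ≤ k ∧ IsSumOfUnitFractions a b k) ∧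
      (k : ℝ) ≤ C * (Real.log (Real.log b) * Real.log (Real.log (Real.log b))) := by
    intro a ha
    obtain ⟨ha1, hab⟩ := Finset.mem_Ico.mp ha
    obtain ⟨S, hS2, hSsum, hScard⟩ := hC a b ha1 hab hb
    refine ⟨S.card, ⟨?_, S, rfl, hS2, hSsum⟩, hScard⟩
    rw [Nat.one_le_iff_ne_zero, Ne, Finset.card_eq_zero]
    rintro rfl
    rw [Finset.sum_empty] at hSsum
    have hbpos : (0 : ℚ) < b := by exact_mod_cast (by omega : 0 < b)
    have hapos : (0 : ℚ) < a := by exact_mod_cast (by omega : 0 < a)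
    have : (0 : ℚ) < (a : ℚ) / b := div_pos hapos hbpos
    exact absurd hSsum this.ne
  refine ⟨fun a ha => ?_, ?_⟩
  · obtain ⟨k, hk, _⟩ := key a ha
    exact ⟨k, hk⟩
  · have hne : (Finset.Ico 1 b).Nonempty := ⟨1, Finset.mem_Ico.mpr ⟨le_refl 1, by omega⟩⟩
    obtain ⟨a, ha, hmax⟩ := Finset.exists_mem_eq_sup (Finset.Ico 1 b) hne (fun a => Nab a b)
    obtain ⟨k, hk, hkC⟩ := key a ha
    have h1 : Nab a b ≤ k := Nat.sInf_le hk
    calc (Nb b : ℝ) = (Nab a b : ℝ) := by rw [Nb, hmax]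
      _ ≤ (k : ℝ) := by exact_mod_cast h1
      _ ≤ _ := hkC

end Vale.Agent.Results.P012.A1_NbBoundTLogT
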